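import Crest.Agent.R63.Prod

/-! Central limit theorem for finite uniform spaces. -/

set_option autoImplicit false
set_option linter.unusedSectionVars false

namespace Crest.Agent.R63

open Finset MeasureTheory ProbabilityTheory Filter
open scoped BigOperators Classical Topology ENNReal BoundedContinuousFunction

noncomputable section

variable {Ω : Type} [Fintype Ω] [Nonempty Ω]

/-- the law of a function on a finite uniform space -/
def law (Z : Ω → ℝ) : Measure ℝ := ∑ x, ((Fintype.card Ω : ℝ≥0∞)⁻¹) • Measure.dirac (Z x)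

lemma card_inv_ne_top : ((Fintype.card Ω : ℝ≥0∞)⁻¹) ≠ ∞ := by
  simp [Fintype.card_ne_zero]

lemma integral_law {E : Type} [NormedAddCommGroup E] [NormedSpace ℝ E] [CompleteSpace E]
    (Z : Ω → ℝ) (g : ℝ → E) :
    ∫ t, g t ∂(law Z) = (Fintype.card Ω : ℝ)⁻¹ • ∑ x, g (Z x) := by
  rw [law, integral_finsetSum_measure, smul_sum]
  · refine sum_congr rfl fun x _ => ?_
    rw [integral_smul_measure, integral_dirac]
    simp
  · intro x _
    exact (integrable_dirac (by simp)).smul_measure card_inv_ne_top

lemma integral_law_real (Z : Ω → ℝ) (g : ℝ → ℝ) : ∫ t, g t ∂(law Z) = 𝔼 x, g (Z x) := by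
  rw [integral_law, Fintype.expect_eq_sum_div_card, smul_eq_mul, div_eq_inv_mul]

lemma integral_law_complex (Z : Ω → ℝ) (g : ℝ → ℂ) : ∫ t, g t ∂(law Z) = 𝔼 x, g (Z x) := by
  rw [integral_law, Fintype.expect_eq_sum_div_card, div_eq_inv_mul, Complex.real_smul]
  simp

instance law_prob (Z : Ω → ℝ) : IsProbabilityMeasure (law Z) where
  measure_univ := by
    simp only [law, Measure.coe_finsetSum, Measure.coe_smul, Finset.sum_apply, Pi.smul_apply,
      measure_univ, smul_eq_mul, mul_one, sum_const, card_univ, nsmul_eq_mul]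
    exact ENNReal.mul_inv_cancel (by simp [Fintype.card_ne_zero]) (by simp)

/-- the law as a probability measure -/
def plaw (Z : Ω → ℝ) : ProbabilityMeasure ℝ := ⟨law Z, law_prob Z⟩

/-- the standard Gaussian -/
def gam : ProbabilityMeasure ℝ := ⟨gaussianReal 0 1, inferInstance⟩

lemma clt (S : Ω → ℝ) (h0 : 𝔼 z, S z = 0) (h1 : 𝔼 z, S z ^ 2 = 1) :
    Tendsto (fun N : ℕ => plaw (fun y : Fin N → Ω => nsum (fun k => S (y k)))) atTop (𝓝 gam) := by
  refine ProbabilityMeasure.tendsto_iff_tendsto_charFun.2 fun t ↦ ?_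
  have h := tendsto_charFun_inv_sqrt_mul_pow (P := law S) (X := id) aemeasurable_id
    (by simpa [integral_law_real S (fun t => t)] using h0)
    (by simpa [integral_law_real S (fun t => t ^ 2)] using h1) t
  rw [Measure.map_id] at h
  have h2 : charFun (gam : Measure ℝ) t = Complex.exp (- t ^ 2 / 2) := by
    change charFun (gaussianReal 0 1) t = _
    simp [charFun_gaussianReal, neg_div]
  rw [h2]
  refine h.congr fun N => ?_
  change _ = charFun (law _) t
  rw [charFun_apply_real, charFun_apply_real, integral_law_complex, integral_law_complex,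
    expect_pow, Fintype.piFinset_univ]
  refine expect_congr rfl fun y _ => ?_
  rw [← Complex.exp_sum]
  congr 1
  simp only [nsum]
  push_cast
  rw [← sum_mul, ← mul_sum]
  ring

lemma clt_bdd (S : Ω → ℝ) (h0 : 𝔼 z, S z = 0) (h1 : 𝔼 z, S z ^ 2 = 1) (g : ℝ →ᵇ ℝ) :
    Tendsto (fun N : ℕ => 𝔼 y : Fin N → Ω, g (nsum (fun k => S (y k)))) atTop
      (𝓝 (∫ t, g t ∂(gaussianReal 0 1))) := by
  have h := ProbabilityMeasure.tendsto_iff_forall_integral_tendsto.1 (clt S h0 h1) g
  refine h.congr fun N => ?_
  exact integral_law_real _ _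

lemma clt_set (S : Ω → ℝ) (h0 : 𝔼 z, S z = 0) (h1 : 𝔼 z, S z ^ 2 = 1) (E : Set ℝ)
    (hE : MeasurableSet E) (hf : (frontier E).Finite) :
    Tendsto (fun N : ℕ => 𝔼 y : Fin N → Ω,
      (if nsum (fun k => S (y k)) ∈ E then (1 : ℝ) else 0)) atTop
      (𝓝 ((gaussianReal 0 1).real E)) := by
  have := nullSingletonClass_gaussianReal (μ := 0) (v := 1) one_ne_zero
  have h := ProbabilityMeasure.tendsto_measure_of_null_frontier_of_tendsto' (clt S h0 h1)
    (E := E) (hf.measure_zero (gaussianReal 0 1))
  have h2 := (ENNReal.tendsto_toReal (measure_ne_top _ _)).comp h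
  refine h2.congr fun N => ?_
  rw [← integral_law_real _ (fun t => if t ∈ E then (1 : ℝ) else 0)]
  have : (fun t => if t ∈ E then (1 : ℝ) else 0) = E.indicator (fun _ => 1) := by
    ext t; simp [Set.indicator]
  rw [this, integral_indicator hE]
  simp only [Function.comp, integral_const, MeasurableSet.univ, measureReal_restrict_apply,
    Set.univ_inter, smul_eq_mul, mul_one]
  rfl

end

end Crest.Agent.R63
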