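import Mathlib

/-! Degree filtration on the Boolean cube (span of juntas) and product lemmas. -/

set_option autoImplicit false

namespace Crest.Agent.R63

open Finset
open scoped BigOperators

noncomputable section

/-- sign of a bit -/
def sg (b : Bool) : ℝ := if b then 1 else -1

/-- functions depending on at most `d` coordinates -/
def IsJunta {ι : Type} (d : ℕ) (f : (ι → Bool) → ℝ) : Prop :=
  ∃ T : Finset ι, T.card ≤ d ∧ ∀ x y : ι → Bool, (∀ i ∈ T, x i = y i) → f x = f y

/-- real degree at most `d` -/
def Deg (ι : Type) (d : ℕ) : Submodule ℝ ((ι → Bool) → ℝ) :=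
  Submodule.span ℝ {f | IsJunta d f}

lemma IsJunta.mem {ι : Type} {d : ℕ} {f : (ι → Bool) → ℝ} (h : IsJunta d f) : f ∈ Deg ι d :=
  Submodule.subset_span h

lemma const_mem_Deg {ι : Type} (d : ℕ) (c : ℝ) : (fun _ : ι → Bool => c) ∈ Deg ι d :=
  IsJunta.mem ⟨∅, by simp, fun _ _ _ => rfl⟩

lemma Deg_mono {ι : Type} {a b : ℕ} (h : a ≤ b) {f : (ι → Bool) → ℝ} (hf : f ∈ Deg ι a) :
    f ∈ Deg ι b := by
  refine Submodule.span_mono ?_ hf
  rintro g ⟨T, hT, hg⟩
  exact ⟨T, hT.trans h, hg⟩

lemma mul_mem_Deg {ι : Type} {a b : ℕ} {f g : (ι → Bool) → ℝ} (hf : f ∈ Deg ι a)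
    (hg : g ∈ Deg ι b) : f * g ∈ Deg ι (a + b) := by
  classical
  induction hf using Submodule.span_induction with
  | zero => simp
  | add f1 f2 _ _ h1 h2 => rw [add_mul]; exact add_mem h1 h2
  | smul c f1 _ h1 => rw [smul_mul_assoc]; exact Submodule.smul_mem _ _ h1
  | mem f1 hf1 =>
    induction hg using Submodule.span_induction with
    | zero => simp
    | add g1 g2 _ _ h1 h2 => rw [mul_add]; exact add_mem h1 h2
    | smul c g1 _ h1 => rw [mul_smul_comm]; exact Submodule.smul_mem _ _ h1
    | mem g1 hg1 =>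
      obtain ⟨T, hT, h1⟩ := hf1
      obtain ⟨U, hU, h2⟩ := hg1
      refine IsJunta.mem ⟨T ∪ U, (card_union_le _ _).trans (add_le_add hT hU), ?_⟩
      intro x y hxy
      simp only [Pi.mul_apply]
      rw [h1 x y (fun i hi => hxy i (mem_union_left _ hi)),
        h2 x y (fun i hi => hxy i (mem_union_right _ hi))]

lemma prod_mem_Deg {ι κ : Type} {D : ℕ} (J : Finset κ) (g : κ → (ι → Bool) → ℝ)
    (hg : ∀ k ∈ J, g k ∈ Deg ι D) : (fun x => ∏ k ∈ J, g k x) ∈ Deg ι (J.card * D) := by
  classical
  induction J using Finset.induction_on with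
  | empty => simpa using const_mem_Deg (ι := ι) 0 1
  | insert a s ha ih =>
    have h1 := mul_mem_Deg (hg a (mem_insert_self _ _))
      (ih (fun k hk => hg k (mem_insert_of_mem hk)))
    rw [card_insert_of_notMem ha, show (s.card + 1) * D = D + s.card * D by ring]
    convert h1 using 1
    ext x
    simp [prod_insert ha]

/-- the `k`-th block of a point of the product cube -/
def blk {κ ι : Type} (x : κ × ι → Bool) (k : κ) : ι → Bool := fun i => x (k, i)

lemma blk_mem_Deg {κ ι : Type} {d : ℕ} {f : (ι → Bool) → ℝ} (hf : f ∈ Deg ι d) (k : κ) :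
    (fun x : κ × ι → Bool => f (blk x k)) ∈ Deg (κ × ι) d := by
  classical
  induction hf using Submodule.span_induction with
  | zero => exact const_mem_Deg d 0
  | add f1 f2 _ _ h1 h2 => exact add_mem h1 h2
  | smul c f1 _ h1 => exact Submodule.smul_mem _ c h1
  | mem f1 hf1 =>
    obtain ⟨T, hT, h1⟩ := hf1
    refine IsJunta.mem ⟨T.image (fun i => (k, i)), card_image_le.trans hT, ?_⟩
    intro x y hxy
    exact h1 _ _ (fun i hi => hxy (k, i) (mem_image_of_mem _ hi))

/-- orthogonality of low degree functions to high characters -/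
lemma sum_mul_char_eq_zero {ι : Type} [Fintype ι] [DecidableEq ι] {d : ℕ}
    {f : (ι → Bool) → ℝ} (hf : f ∈ Deg ι d) (S : Finset ι) (hS : d < S.card) :
    ∑ x : ι → Bool, f x * ∏ i ∈ S, sg (x i) = 0 := by
  induction hf using Submodule.span_induction with
  | zero => simp
  | add f1 f2 _ _ h1 h2 => simp only [Pi.add_apply, add_mul, sum_add_distrib, h1, h2, add_zero]
  | smul c f1 _ h1 =>
    simp only [Pi.smul_apply, smul_eq_mul, mul_assoc, ← mul_sum, h1, mul_zero]
  | mem f1 hf1 =>
    obtain ⟨T, hT, h1⟩ := hf1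
    obtain ⟨i, hiS, hiT⟩ : ∃ i ∈ S, i ∉ T := by
      by_contra hcon
      push Not at hcon
      have := card_le_card (show S ⊆ T from hcon)
      omega
    let e : (ι → Bool) ≃ (ι → Bool) :=
      { toFun := fun x => Function.update x i (!x i)
        invFun := fun x => Function.update x i (!x i)
        left_inv := fun x => by simp
        right_inv := fun x => by simp }
    have key : ∀ x : ι → Bool, f1 (e x) * ∏ j ∈ S, sg (e x j) = -(f1 x * ∏ j ∈ S, sg (x j)) := by
      intro x
      have h2 : f1 (e x) = f1 x := by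
        apply h1
        intro j hj
        have : j ≠ i := fun h => hiT (h ▸ hj)
        simp [e, Function.update_of_ne this]
      rw [h2, ← mul_prod_erase S _ hiS, ← mul_prod_erase S (fun j => sg (x j)) hiS]
      have h3 : ∏ j ∈ S.erase i, sg (e x j) = ∏ j ∈ S.erase i, sg (x j) := by
        refine prod_congr rfl fun j hj => ?_
        have : j ≠ i := ne_of_mem_erase hj
        simp [e, Function.update_of_ne this]
      have h4 : sg (e x i) = - sg (x i) := by
        simp only [e, Equiv.coe_fn_mk, Function.update_self]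
        cases x i <;> simp [sg]
      rw [h3, h4]; ring
    have h5 := Equiv.sum_comp e (fun x => f1 x * ∏ j ∈ S, sg (x j))
    simp only [key, sum_neg_distrib] at h5
    linarith

/-- A function of finitely many block statistics has degree at most (number of blocks) * D. -/
lemma multi_mem_Deg {κ ι : Type} [Fintype κ] [DecidableEq κ] [Fintype ι] [DecidableEq ι]
    {D : ℕ} {S : (ι → Bool) → ℝ} (hS : ∀ φ : ℝ → ℝ, (fun x => φ (S x)) ∈ Deg ι D)
    (J : Finset κ) (G : (κ → ℝ) → ℝ) (hG : ∀ s t : κ → ℝ, (∀ k ∈ J, s k = t k) → G s = G t) :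
    (fun x : κ × ι → Bool => G (fun k => S (blk x k))) ∈ Deg (κ × ι) (J.card * D) := by
  classical
  let V : κ → Finset ℝ := fun k => if k ∈ J then univ.image S else {0}
  have h1 : (fun x : κ × ι → Bool => G (fun k => S (blk x k))) =
      ∑ v ∈ Fintype.piFinset V, G v • (fun x : κ × ι → Bool =>
        ∏ k ∈ J, (if S (blk x k) = v k then (1 : ℝ) else 0)) := by
    ext x
    rw [Finset.sum_apply]
    let v0 : κ → ℝ := fun k => if k ∈ J then S (blk x k) else 0
    rw [sum_eq_single v0]
    · simp only [Pi.smul_apply, smul_eq_mul]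
      rw [prod_eq_one, mul_one]
      · apply hG
        intro k hk
        simp [v0, hk]
      · intro k hk
        simp [v0, hk]
    · intro v hv hne
      simp only [Pi.smul_apply, smul_eq_mul]
      obtain ⟨k, hk⟩ : ∃ k, v k ≠ v0 k := by
        by_contra hcon
        push Not at hcon
        exact hne (funext hcon)
      by_cases hkJ : k ∈ J
      · rw [prod_eq_zero hkJ, mul_zero]
        rw [if_neg]
        intro h
        apply hk
        simp [v0, hkJ, h]
      · exfalso
        apply hk
        have := Fintype.mem_piFinset.1 hv k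
        simp [V, hkJ] at this
        simp [v0, hkJ, this]
    · intro h
      exfalso
      apply h
      rw [Fintype.mem_piFinset]
      intro k
      by_cases hkJ : k ∈ J <;> simp [V, v0, hkJ]
  rw [h1]
  refine Submodule.sum_mem _ fun v _ => Submodule.smul_mem _ _ ?_
  refine prod_mem_Deg J (fun k x => if S (blk x k) = v k then (1 : ℝ) else 0) ?_
  intro k _
  exact blk_mem_Deg (hS (fun s => if s = v k then (1 : ℝ) else 0)) k

end

end Crest.Agent.R63
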