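import Mathlib

/-! Gaussian estimates for the star cell. -/

set_option autoImplicit false

namespace Crest.Agent.R63

open MeasureTheory ProbabilityTheory Filter Real
open scoped Topology

noncomputable section

lemma gauss_real_eq (E : Set ℝ) :
    (gaussianReal 0 1).real E = ∫ x in E, gaussianPDFReal 0 1 x := by
  rw [Measure.real, gaussianReal_apply_eq_integral 0 one_ne_zero, ENNReal.toReal_ofReal]
  exact integral_nonneg fun x => gaussianPDFReal_nonneg _ _ _

lemma gauss_Icc_le (a b M : ℝ) (hab : a ≤ b) (hM : ∀ t ∈ Set.Icc a b, gaussianPDFReal 0 1 t ≤ M) :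
    (gaussianReal 0 1).real (Set.Icc a b) ≤ M * (b - a) := by
  rw [gauss_real_eq]
  have := setIntegral_mono_on (μ := volume) (s := Set.Icc a b) (f := gaussianPDFReal 0 1)
    (g := fun _ => M) (integrable_gaussianPDFReal 0 1).integrableOn
    (integrableOn_const (by simp)) measurableSet_Icc hM
  simpa [hab, mul_comm] using this

lemma le_gauss_Ioo (a b M : ℝ) (hab : a ≤ b) (hM : ∀ t ∈ Set.Ioo a b, M ≤ gaussianPDFReal 0 1 t) :
    M * (b - a) ≤ (gaussianReal 0 1).real (Set.Ioo a b) := by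
  rw [gauss_real_eq]
  have := setIntegral_mono_on (μ := volume) (s := Set.Ioo a b) (g := gaussianPDFReal 0 1)
    (f := fun _ => M) (integrableOn_const (by simp)) (integrable_gaussianPDFReal 0 1).integrableOn
    measurableSet_Ioo hM
  simpa [hab, mul_comm] using this

lemma pdf_le (s t a : ℝ) (h : (t ^ 2 - s ^ 2) / 2 ≤ a) :
    gaussianPDFReal 0 1 s ≤ exp a * gaussianPDFReal 0 1 t := by
  simp only [gaussianPDFReal, NNReal.coe_one, mul_one, sub_zero]
  rw [mul_left_comm, ← exp_add]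
  refine mul_le_mul_of_nonneg_left (exp_le_exp.2 ?_) (by positivity)
  linarith

lemma gauss_ratio (V h ω c : ℝ) (hh : 0 < h) (hh1 : h ≤ 1) (hω : 0 < ω) (hω1 : ω ≤ 1)
    (hc : |c| ≤ V) :
    (gaussianReal 0 1).real (Set.Icc (c - h) (c + h)) <
      (2 * exp (3 * V + 3) * h / ω) * (gaussianReal 0 1).real (Set.Ioo (c - 1 - ω) (c - 1 + ω)) := by
  have hV : 0 ≤ V := (abs_nonneg c).trans hc
  obtain ⟨hc1, hc2⟩ := abs_le.1 hc
  have h1 := gauss_Icc_le (c - h) (c + h) (exp (V + 1) * gaussianPDFReal 0 1 c) (by linarith) (by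
    intro t ht
    apply pdf_le
    obtain ⟨ht1, ht2⟩ := ht
    have : c ^ 2 - t ^ 2 = (c - t) * (c + t) := by ring
    rw [this]
    have h3 : |c - t| ≤ 1 := abs_le.2 ⟨by linarith, by linarith⟩
    have h4 : |c + t| ≤ 2 * V + 1 := abs_le.2 ⟨by linarith, by linarith⟩
    have h5 : (c - t) * (c + t) ≤ 1 * (2 * V + 1) := by
      refine (le_abs_self _).trans ?_
      rw [abs_mul]
      exact mul_le_mul h3 h4 (abs_nonneg _) zero_le_one
    linarith)
  have h2 := le_gauss_Ioo (c - 1 - ω) (c - 1 + ω) (exp (-(2 * V + 2)) * gaussianPDFReal 0 1 c)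
    (by linarith) (by
    intro t ht
    obtain ⟨ht1, ht2⟩ := ht
    have h6 := pdf_le c t (2 * V + 2) (by
      have : t ^ 2 - c ^ 2 = (t - c) * (t + c) := by ring
      rw [this]
      have h3 : |t - c| ≤ 2 := abs_le.2 ⟨by linarith, by linarith⟩
      have h4 : |t + c| ≤ 2 * V + 2 := abs_le.2 ⟨by linarith, by linarith⟩
      have h5 : (t - c) * (t + c) ≤ 2 * (2 * V + 2) := by
        refine (le_abs_self _).trans ?_
        rw [abs_mul]
        exact mul_le_mul h3 h4 (abs_nonneg _) zero_le_two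
      linarith)
    rw [exp_neg, inv_mul_le_iff₀ (exp_pos _)]
    exact h6)
  have hp := gaussianPDFReal_pos 0 1 c one_ne_zero
  have h7 : exp (3 * V + 3) * exp (-(2 * V + 2)) = exp (V + 1) := by
    rw [← exp_add]; congr 1; ring
  have h8 : (2 * exp (3 * V + 3) * h / ω) *
      (exp (-(2 * V + 2)) * gaussianPDFReal 0 1 c * (c - 1 + ω - (c - 1 - ω)))
      = 2 * (exp (V + 1) * gaussianPDFReal 0 1 c * (c + h - (c - h))) := by
    rw [← h7]; field_simp; ring
  have h9 : 0 < exp (V + 1) * gaussianPDFReal 0 1 c * (c + h - (c - h)) := by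
    have : 0 < c + h - (c - h) := by linarith
    positivity
  calc _ ≤ _ := h1
    _ < 2 * (exp (V + 1) * gaussianPDFReal 0 1 c * (c + h - (c - h))) := by linarith
    _ = _ := h8.symm
    _ ≤ _ := mul_le_mul_of_nonneg_left h2 (by positivity)

lemma gauss_Ioo_pos (a b : ℝ) (hab : a < b) : 0 < (gaussianReal 0 1).real (Set.Ioo a b) := by
  have h := le_gauss_Ioo a b (exp (-((|a| + |b|) ^ 2 / 2)) * gaussianPDFReal 0 1 0) hab.le (by
    intro t ht
    obtain ⟨ht1, ht2⟩ := ht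
    have h6 := pdf_le 0 t ((|a| + |b|) ^ 2 / 2) (by
      have h3 : |t| ≤ |a| + |b| := abs_le.2
        ⟨by linarith [neg_abs_le a, abs_nonneg b], by linarith [le_abs_self b, abs_nonneg a]⟩
      have h4 : t ^ 2 ≤ (|a| + |b|) ^ 2 := by
        rw [← sq_abs t]
        exact pow_le_pow_left₀ (abs_nonneg _) h3 2
      linarith)
    rw [exp_neg, inv_mul_le_iff₀ (exp_pos _)]
    exact h6)
  refine lt_of_lt_of_le ?_ h
  have hp := gaussianPDFReal_pos 0 1 0 one_ne_zero
  have : 0 < b - a := by linarith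
  positivity

lemma gauss_tail (V : ℝ) (hV : 0 ≤ V) :
    1 - ∫ t, min (t ^ 2) (V ^ 2 / 4) ∂(gaussianReal 0 1) ≤ 4 * exp (21 ^ 2 / 2) * exp (-(10 * V)) := by
  have hsq : Integrable (fun t : ℝ => t ^ 2) (gaussianReal 0 1) :=
    (memLp_id_gaussianReal (μ := 0) (v := 1) 2).integrable_sq
  have hvar : ∫ t, t ^ 2 ∂(gaussianReal 0 1) = 1 := by
    have h := variance_fun_id_gaussianReal (μ := 0) (v := 1)
    rw [variance_eq_integral (by fun_prop)] at h
    simpa using h
  have hmin : Integrable (fun t : ℝ => min (t ^ 2) (V ^ 2 / 4)) (gaussianReal 0 1) := by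
    refine hsq.mono' (by fun_prop) (Eventually.of_forall fun t => ?_)
    rw [Real.norm_eq_abs, abs_of_nonneg (le_min (sq_nonneg _) (by positivity))]
    exact min_le_left _ _
  have he1 := integrable_exp_mul_gaussianReal (μ := 0) (v := 1) 21
  have he2 := integrable_exp_mul_gaussianReal (μ := 0) (v := 1) (-21)
  have hm : ∀ s : ℝ, ∫ t, exp (s * t) ∂(gaussianReal 0 1) = exp (s ^ 2 / 2) := by
    intro s
    have := congrFun (mgf_fun_id_gaussianReal (μ := 0) (v := 1)) s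
    simpa [mgf] using this
  have hpt : ∀ t : ℝ, t ^ 2 - min (t ^ 2) (V ^ 2 / 4) ≤
      2 * exp (-(10 * V)) * (exp (21 * t) + exp (-21 * t)) := by
    intro t
    by_cases ht : t ^ 2 ≤ V ^ 2 / 4
    · rw [min_eq_left ht, sub_self]; positivity
    · push Not at ht
      have h1 : V / 2 < |t| := by
        apply lt_of_pow_lt_pow_left₀ 2 (abs_nonneg _)
        rw [sq_abs]; linarith
      have h2 : t ^ 2 ≤ 2 * exp |t| := by
        have := Real.pow_div_factorial_le_exp (abs t) (abs_nonneg t) 2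
        rw [sq_abs] at this
        norm_num [Nat.factorial] at this
        linarith
      have h3 : exp |t| ≤ exp (-(10 * V)) * exp (21 * |t|) := by
        rw [← exp_add]; apply exp_le_exp.2; linarith
      have h4 : exp (21 * |t|) ≤ exp (21 * t) + exp (-21 * t) := by
        rcases abs_choice t with h | h
        · rw [h]; linarith [exp_pos (-21 * t)]
        · rw [h, show 21 * -t = -21 * t by ring]; linarith [exp_pos (21 * t)]
      have h5 : 0 ≤ min (t ^ 2) (V ^ 2 / 4) := le_min (sq_nonneg _) (by positivity)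
      have h6 := mul_le_mul_of_nonneg_left h4 (exp_pos (-(10 * V))).le
      linarith
  have h := integral_mono (hsq.sub hmin) (((he1.add he2).const_mul (2 * exp (-(10 * V))))) hpt
  simp only [Pi.sub_apply, Pi.add_apply] at h
  rw [integral_sub hsq hmin, hvar, integral_const_mul, integral_add he1 he2, hm, hm] at h
  norm_num at h ⊢
  linarith

lemma gauss_config : ∃ (V h ω B : ℝ) (M : ℕ), 2 ≤ V ∧ 0 < h ∧ 0 < ω ∧ ω ≤ 1 ∧ M * h = V ∧
    0 ≤ B ∧
    (∀ c, |c| ≤ V → (gaussianReal 0 1).real (Set.Icc (c - h) (c + h)) <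
      B * (gaussianReal 0 1).real (Set.Ioo (c - 1 - ω) (c - 1 + ω))) ∧
    28 * (1 - ∫ t, min (t ^ 2) (V ^ 2 / 4) ∂(gaussianReal 0 1)) <
      (gaussianReal 0 1).real (Set.Ioo (0 - ω) (0 + ω)) ∧
    M * (B * ((h + ω) ^ 2 + (M + 1) * (4 * ω ^ 2))) ≤ 1 / 4 ∧ (M + 1) * (4 * ω ^ 2) ≤ 1 := by
  set q := gaussianPDFReal 0 1 1 with hq
  have hq0 : 0 < q := gaussianPDFReal_pos 0 1 1 one_ne_zero
  set C := 112 * (4 * exp (21 ^ 2 / 2)) * (96 * exp 3) ^ 3 with hC
  have hC0 : 0 < C := by positivity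
  have hlim := ((tendsto_pow_mul_exp_neg_atTop_nhds_zero 6).comp
    tendsto_natCast_atTop_atTop).const_mul C
  rw [mul_zero] at hlim
  obtain ⟨V, hV, hV2⟩ := ((hlim.eventually (gt_mem_nhds hq0)).and (eventually_ge_atTop 2)).exists
  simp only [Function.comp] at hV
  have hV2' : (2 : ℝ) ≤ V := by exact_mod_cast hV2
  set K := exp (3 * (V : ℝ) + 3) with hK
  have hK1 : 1 ≤ K := one_le_exp (by positivity)
  set N0 : ℝ := 8 * K * V * (4 + 8 * V) with hN0
  have hN0V : 8 * (V : ℝ) ≤ N0 := by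
    have : (1 : ℝ) * 1 ≤ K * (4 + 8 * V) := mul_le_mul hK1 (by linarith) zero_le_one (by linarith)
    nlinarith
  set n : ℕ := ⌈N0⌉₊ with hn
  have hn1 : N0 ≤ n := Nat.le_ceil _
  have hn2 : (n : ℝ) ≤ 2 * N0 := by
    have := Nat.ceil_lt_add_one (show 0 ≤ N0 by linarith)
    linarith
  have hn3 : (1 : ℝ) ≤ n := by linarith
  have hn0 : (0 : ℝ) < n := by linarith
  have hh1 : 1 / (n : ℝ) ^ 2 ≤ 1 := by
    rw [div_le_one (by positivity)]; exact one_le_pow₀ hn3
  have hω1 : 1 / (n : ℝ) ^ 3 ≤ 1 := by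
    rw [div_le_one (by positivity)]; exact one_le_pow₀ hn3
  have hM1 : ((V * n ^ 2 : ℕ) + 1 : ℝ) * (4 * (1 / (n : ℝ) ^ 3) ^ 2) ≤ 8 * V / (n : ℝ) ^ 4 := by
    push_cast
    have h1 : (1 : ℝ) ≤ V * n ^ 2 := by
      have : (1 : ℝ) ≤ n ^ 2 := one_le_pow₀ hn3
      nlinarith
    have h2 : ((V : ℝ) * n ^ 2 + 1) * (4 * (1 / (n : ℝ) ^ 3) ^ 2)
        ≤ (2 * (V * n ^ 2)) * (4 * (1 / (n : ℝ) ^ 3) ^ 2) :=
      mul_le_mul_of_nonneg_right (by linarith) (by positivity)
    refine h2.trans (le_of_eq ?_)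
    field_simp
    ring
  refine ⟨V, 1 / (n : ℝ) ^ 2, 1 / (n : ℝ) ^ 3, 2 * K * n, V * n ^ 2, hV2', by positivity,
    by positivity, hω1, ?_, by positivity, ?_, ?_, ?_, ?_⟩
  · push_cast; field_simp
  · intro c hc
    have := gauss_ratio V (1 / (n : ℝ) ^ 2) (1 / (n : ℝ) ^ 3) c (by positivity) hh1
      (by positivity) hω1 hc
    convert this using 2
    rw [← hK]; field_simp
  · have h1 := gauss_tail V (by linarith)
    have h2 := le_gauss_Ioo (0 - 1 / (n : ℝ) ^ 3) (0 + 1 / (n : ℝ) ^ 3) q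
      (by have : 0 < 1 / (n : ℝ) ^ 3 := by positivity
          linarith) (by
      intro t ht
      obtain ⟨ht1, ht2⟩ := ht
      have := pdf_le 1 t 0 (by nlinarith)
      simpa using this)
    refine lt_of_lt_of_le ?_ h2
    have h3 : N0 ≤ 96 * exp 3 * (exp (3 * V) * V ^ 2) := by
      have h4 : K = exp 3 * exp (3 * V) := by rw [hK, ← exp_add]; congr 1; ring
      have h5 : (V : ℝ) * (4 + 8 * V) ≤ 12 * V ^ 2 := by nlinarith
      calc N0 = 8 * K * (V * (4 + 8 * V)) := by rw [hN0]; ring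
        _ ≤ 8 * K * (12 * V ^ 2) := mul_le_mul_of_nonneg_left h5 (by positivity)
        _ = _ := by rw [h4]; ring
    have h6 : (n : ℝ) ^ 3 ≤ 8 * ((96 * exp 3) ^ 3 * (exp (9 * V) * V ^ 6)) := by
      have h7 : (n : ℝ) ^ 3 ≤ (2 * (96 * exp 3 * (exp (3 * V) * V ^ 2))) ^ 3 :=
        pow_le_pow_left₀ hn0.le (by linarith) 3
      refine h7.trans (le_of_eq ?_)
      have : exp (9 * (V : ℝ)) = exp (3 * V) ^ 3 := by
        rw [← exp_nat_mul]; congr 1; push_cast; ring
      rw [this]; ring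
    have h8 : exp (9 * (V : ℝ)) * exp (-(10 * V)) = exp (-V) := by
      rw [← exp_add]; congr 1; ring
    have h9 : 28 * (4 * exp (21 ^ 2 / 2) * exp (-(10 * (V : ℝ)))) * (n : ℝ) ^ 3 < 2 * q := by
      calc _ ≤ 28 * (4 * exp (21 ^ 2 / 2) * exp (-(10 * (V : ℝ)))) *
            (8 * ((96 * exp 3) ^ 3 * (exp (9 * V) * V ^ 6))) :=
            mul_le_mul_of_nonneg_left h6 (by positivity)
        _ = 2 * (C * ((V : ℝ) ^ 6 * exp (-V))) := by rw [hC, ← h8]; ring
        _ < 2 * q := by linarith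
    have h10 : q * (0 + 1 / (n : ℝ) ^ 3 - (0 - 1 / (n : ℝ) ^ 3)) = 2 * q / (n : ℝ) ^ 3 := by
      field_simp; ring
    rw [h10, lt_div_iff₀ (by positivity)]
    refine lt_of_le_of_lt ?_ h9
    exact mul_le_mul_of_nonneg_right (by linarith) (by positivity)
  · have h1 : (1 / (n : ℝ) ^ 2 + 1 / (n : ℝ) ^ 3) ^ 2 ≤ 4 / (n : ℝ) ^ 4 := by
      have h2 : 1 / (n : ℝ) ^ 3 ≤ 1 / (n : ℝ) ^ 2 :=
        one_div_le_one_div_of_le (by positivity) (pow_le_pow_right₀ hn3 (by norm_num))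
      have h3 : (1 / (n : ℝ) ^ 2 + 1 / (n : ℝ) ^ 3) ^ 2 ≤ (2 * (1 / (n : ℝ) ^ 2)) ^ 2 :=
        pow_le_pow_left₀ (by positivity) (by linarith) 2
      refine h3.trans (le_of_eq ?_)
      field_simp; norm_num
    calc _ ≤ ((V * n ^ 2 : ℕ) : ℝ) * (2 * K * n * (4 / (n : ℝ) ^ 4 + 8 * V / (n : ℝ) ^ 4)) := by
          refine mul_le_mul_of_nonneg_left (mul_le_mul_of_nonneg_left (add_le_add h1 hM1)
            (by positivity)) (by positivity)
      _ = N0 / (4 * n) := by rw [hN0]; push_cast; field_simp; ring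
      _ ≤ 1 / 4 := by
          rw [div_le_div_iff₀ (by positivity) (by norm_num)]; linarith
  · refine hM1.trans ?_
    rw [div_le_one (by positivity)]
    have : (n : ℝ) ≤ n ^ 4 := le_self_pow₀ hn3 (by norm_num)
    linarith

end

end Crest.Agent.R63
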