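import Crest.Agent.R63.Gain
import Crest.Agent.R63.CLT
import Crest.Agent.R63.Gauss

/-! Iterating the star construction. -/

set_option autoImplicit false
set_option linter.unusedSectionVars false

namespace Crest.Agent.R63

open Finset MeasureTheory ProbabilityTheory Filter
open scoped BigOperators Classical Topology BoundedContinuousFunction

noncomputable section

lemma cond_mean {K Ω : Type} [Fintype Ω] [Nonempty Ω] (R : K → Set ℝ) (Z : Ω → ℝ) (k : K)
    (ρ ω : ℝ) (hR : R k = Set.Ioo (ρ - ω) (ρ + ω)) (hP : 0 < 𝔼 z, wR R k (Z z)) :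
    ∃ r : ℝ, |r - ρ| ≤ ω ∧ 𝔼 z, wR R k (Z z) * (Z z - r) = 0 ∧
      𝔼 z, wR R k (Z z) * (Z z - r) ^ 2 ≤ (4 * ω ^ 2) * 𝔼 z, wR R k (Z z) := by
  set P := 𝔼 z, wR R k (Z z) with hPd
  set r := (𝔼 z, wR R k (Z z) * Z z) / P with hr
  have h1 : 𝔼 z, wR R k (Z z) * Z z ≤ (ρ + ω) * P := by
    rw [hPd, mul_expect]
    refine expect_le_expect fun z _ => ?_
    unfold wR
    split_ifs with h
    · rw [hR] at h; linarith [h.2]
    · simp
  have h2 : (ρ - ω) * P ≤ 𝔼 z, wR R k (Z z) * Z z := by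
    rw [hPd, mul_expect]
    refine expect_le_expect fun z _ => ?_
    unfold wR
    split_ifs with h
    · rw [hR] at h; linarith [h.1]
    · simp
  have h3 : r ≤ ρ + ω := by rw [hr, div_le_iff₀ hP]; exact h1
  have h4 : ρ - ω ≤ r := by rw [hr, le_div_iff₀ hP]; exact h2
  refine ⟨r, abs_le.2 ⟨by linarith, by linarith⟩, ?_, ?_⟩
  · simp only [mul_sub]
    rw [expect_sub_distrib, ← expect_mul, ← hPd, hr]
    field_simp
    ring
  · rw [hPd, mul_expect]
    refine expect_le_expect fun z _ => ?_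
    unfold wR
    split_ifs with h
    · rw [hR] at h
      obtain ⟨h5, h6⟩ := h
      have : (Z z - r) ^ 2 ≤ (2 * ω) ^ 2 := sq_le_sq' (by linarith) (by linarith)
      linarith
    · simp

lemma exists_good : ∃ (K : Type) (_ : Fintype K) (_ : DecidableEq K) (p : ℝ → K) (R : K → Set ℝ)
    (π₀ : ℝ), 0 < π₀ ∧ 0 < Fintype.card K ∧ ∀ (Ω : Type) [Fintype Ω] [Nonempty Ω] (S : Ω → ℝ),
      𝔼 z, S z = 0 → 𝔼 z, S z ^ 2 = 1 → ∀ᶠ N : ℕ in atTop,
        (𝔼 y : Fin N → Ω, nsum (fun k => S (y k)) ^ 2 = 1 →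
          Good p R (fun y : Fin N → Ω => nsum (fun k => S (y k))) π₀) := by
  obtain ⟨V, h, ω, B, M, hV, hh, hω, hω1, hM, hB, ha, hc, hd1, hd2⟩ := gauss_config
  let c : Fin M → ℝ := fun j => -V + (2 * j + 1) * h
  have hcV : ∀ j, |c j| ≤ V := by
    intro j
    have h1 : ((j : ℕ) : ℝ) + 1 ≤ M := by exact_mod_cast j.2
    have h2 : (0 : ℝ) ≤ (j : ℕ) := Nat.cast_nonneg _
    refine abs_le.2 ⟨?_, ?_⟩
    · have : 0 ≤ (2 * ((j : ℕ) : ℝ) + 1) * h := by positivity
      simp only [c]; linarith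
    · simp only [c]; nlinarith
  have hp : ∀ t : ℝ, ∃ k : Option (Fin M), (k = none → V ≤ |t|) ∧
      ∀ j, k = some j → t ∈ Set.Icc (c j - h) (c j + h) := by
    intro t
    by_cases ht : V ≤ |t|
    · exact ⟨none, fun _ => ht, fun j hj => by simp at hj⟩
    · push Not at ht
      obtain ⟨ht1, ht2⟩ := abs_lt.1 ht
      have h0 : 0 ≤ (t + V) / (2 * h) := by
        apply div_nonneg <;> linarith
      have h1 : ⌊(t + V) / (2 * h)⌋₊ < M := by
        rw [Nat.floor_lt h0, div_lt_iff₀ (by linarith)]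
        nlinarith
      refine ⟨some ⟨_, h1⟩, fun h => by simp at h, fun j hj => ?_⟩
      obtain rfl : (⟨_, h1⟩ : Fin M) = j := by simpa using hj
      have h2 := Nat.floor_le h0
      have h3 := Nat.lt_floor_add_one ((t + V) / (2 * h))
      rw [le_div_iff₀ (by linarith)] at h2
      rw [div_lt_iff₀ (by linarith)] at h3
      simp only [c, Set.mem_Icc]
      constructor <;> nlinarith
  choose p hp0 hp1 using hp
  let ρ : Option (Fin M) → ℝ := fun k => Option.elim k 0 (fun j => c j - 1)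
  let R : Option (Fin M) → Set ℝ := fun k => Set.Ioo (ρ k - ω) (ρ k + ω)
  have hpos : ∀ k, 0 < (gaussianReal 0 1).real (R k) := fun k =>
    gauss_Ioo_pos _ _ (by linarith)
  obtain ⟨π₀, hπ0, hπ⟩ : ∃ π₀ : ℝ, 0 < π₀ ∧ ∀ k, π₀ < (gaussianReal 0 1).real (R k) := by
    obtain ⟨k0, -, hk0⟩ := exists_min_image univ (fun k => (gaussianReal 0 1).real (R k))
      univ_nonempty
    exact ⟨(gaussianReal 0 1).real (R k0) / 2, by linarith [hpos k0], fun k => by
      linarith [hpos k0, hk0 k (mem_univ _)]⟩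
  refine ⟨Option (Fin M), inferInstance, inferInstance, p, R, π₀, hπ0, Fintype.card_pos, ?_⟩
  intro Ω _ _ S h0 h1
  have hfr : ∀ a b : ℝ, a < b → (frontier (Set.Ioo a b)).Finite := fun a b hab => by
    rw [frontier_Ioo hab]; exact Set.toFinite _
  have hfr' : ∀ a b : ℝ, a ≤ b → (frontier (Set.Icc a b)).Finite := fun a b hab => by
    rw [frontier_Icc hab]; exact Set.toFinite _
  have hR : ∀ k, Tendsto (fun N : ℕ => 𝔼 y : Fin N → Ω, wR R k (nsum (fun k => S (y k)))) atTop
      (𝓝 ((gaussianReal 0 1).real (R k))) := fun k =>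
    clt_set S h0 h1 (R k) measurableSet_Ioo (hfr _ _ (by linarith))
  have hT := fun j : Fin M => clt_set S h0 h1 (Set.Icc (c j - h) (c j + h)) measurableSet_Icc
    (hfr' _ _ (by linarith))
  let g : ℝ →ᵇ ℝ := BoundedContinuousFunction.ofNormedAddCommGroup
    (fun t => min (t ^ 2) (V ^ 2 / 4)) (by fun_prop) (V ^ 2 / 4) (fun t => by
      rw [Real.norm_eq_abs, abs_of_nonneg (le_min (sq_nonneg _) (by positivity))]
      exact min_le_right _ _)
  have hg : Tendsto (fun N : ℕ => 𝔼 y : Fin N → Ω, min (nsum (fun k => S (y k)) ^ 2) (V ^ 2 / 4))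
      atTop (𝓝 (∫ t, min (t ^ 2) (V ^ 2 / 4) ∂(gaussianReal 0 1))) := clt_bdd S h0 h1 g
  have e1 := eventually_all.2 fun k => (hR k).eventually (lt_mem_nhds (hπ k))
  have e2 := eventually_all.2 fun j : Fin M =>
    (hT j).eventually_lt ((hR (some j)).const_mul B) (ha (c j) (hcV j))
  have e3 := (((tendsto_const_nhds (x := (1 : ℝ))).sub hg).const_mul 28).eventually_lt (hR none) hc
  filter_upwards [e1, e2, e3] with N e1 e2 e3 hvar
  set Z : (Fin N → Ω) → ℝ := fun y => nsum (fun k => S (y k)) with hZ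
  have hPpos : ∀ k, 0 < 𝔼 y, wR R k (Z y) := fun k => hπ0.trans (e1 k)
  choose r hr1 hr2 hr3 using fun k => cond_mean R Z k (ρ k) ω rfl (hPpos k)
  refine ⟨fun k => (e1 k).le, r, 4 * ω ^ 2, by positivity, hr2, hr3, ?_⟩
  rw [Fintype.sum_option, Fintype.card_option, Fintype.card_fin]
  push_cast
  have htail : ((𝔼 z, tau p none (Z z) * (Z z - r none - 1) ^ 2) +
      (𝔼 z, tau p none (Z z)) * ((M + 1) * (4 * ω ^ 2))) / (𝔼 z, wR R none (Z z)) ≤ 1 / 4 := by
    rw [div_le_iff₀ (hPpos none), expect_mul, ← expect_add_distrib]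
    have h2 : 𝔼 z, (tau p none (Z z) * (Z z - r none - 1) ^ 2 +
        tau p none (Z z) * ((M + 1) * (4 * ω ^ 2))) ≤
        𝔼 z, 7 * (Z z ^ 2 - min (Z z ^ 2) (V ^ 2 / 4)) := by
      refine expect_le_expect fun z _ => ?_
      unfold tau
      split_ifs with hz
      · have h3 := hp0 _ hz
        have h4 : |r none| ≤ 1 := by simpa [ρ] using (hr1 none).trans hω1
        have h5 : |Z z - r none - 1| ≤ 2 * |Z z| := by
          have := abs_sub (Z z - r none) 1
          have := abs_sub (Z z) (r none)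
          simp only [abs_one] at *
          linarith
        have h6 : (Z z - r none - 1) ^ 2 ≤ 4 * Z z ^ 2 := by
          have := pow_le_pow_left₀ (abs_nonneg _) h5 2
          rw [sq_abs, mul_pow, sq_abs] at this
          linarith
        have h7 : V ^ 2 ≤ Z z ^ 2 := by
          have := pow_le_pow_left₀ (by linarith) h3 2
          rwa [sq_abs] at this
        have h8 := min_le_right (Z z ^ 2) (V ^ 2 / 4)
        nlinarith
      · have := min_le_left (Z z ^ 2) (V ^ 2 / 4)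
        simp only [zero_mul, add_zero]
        linarith
    rw [← mul_expect, expect_sub_distrib, hvar] at h2
    linarith
  have hbulk : ∀ j : Fin M, ((𝔼 z, tau p (some j) (Z z) * (Z z - r (some j) - 1) ^ 2) +
      (𝔼 z, tau p (some j) (Z z)) * ((M + 1) * (4 * ω ^ 2))) / (𝔼 z, wR R (some j) (Z z)) ≤
      B * ((h + ω) ^ 2 + (M + 1) * (4 * ω ^ 2)) := by
    intro j
    rw [div_le_iff₀ (hPpos _), expect_mul, ← expect_add_distrib]
    have h2 : 𝔼 z, (tau p (some j) (Z z) * (Z z - r (some j) - 1) ^ 2 +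
        tau p (some j) (Z z) * ((M + 1) * (4 * ω ^ 2))) ≤
        𝔼 z, (if Z z ∈ Set.Icc (c j - h) (c j + h) then (1 : ℝ) else 0) *
          ((h + ω) ^ 2 + (M + 1) * (4 * ω ^ 2)) := by
      refine expect_le_expect fun z _ => ?_
      unfold tau
      split_ifs with hz hz2
      · obtain ⟨h3, h4⟩ := hz2
        obtain ⟨h5, h6⟩ := abs_le.1 (hr1 (some j))
        simp only [ρ, Option.elim_some] at h5 h6
        have : (Z z - r (some j) - 1) ^ 2 ≤ (h + ω) ^ 2 := sq_le_sq' (by linarith) (by linarith)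
        linarith
      · exact absurd (hp1 _ j hz) hz2
      · simp only [zero_mul, add_zero]; positivity
      · simp
    rw [← expect_mul] at h2
    have h3 := mul_le_mul_of_nonneg_right (e2 j).le
      (show 0 ≤ (h + ω) ^ 2 + (M + 1) * (4 * ω ^ 2) by positivity)
    refine h2.trans (le_trans ?_ (h3.trans (le_of_eq (by ring))))
    exact le_of_eq (by congr; ext i; congr)
  have hs := sum_le_sum (fun j (_ : j ∈ univ) => hbulk j)
  simp only [sum_const, card_univ, Fintype.card_fin, nsmul_eq_mul] at hs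
  linarith

/-- efficiency at least `ρ` is achievable -/
def Eff (ρ : ℝ) : Prop := ∃ (ι : Type) (_ : Fintype ι) (_ : DecidableEq ι)
  (S : (ι → Bool) → ℝ) (D : ℕ) (σ : ℝ), Obj ι S D σ ∧ 0 < σ ∧ ρ * D ≤ σ ^ 2

lemma eff_step : ∃ η : ℝ, 0 < η ∧ ∀ ρ, 0 ≤ ρ → Eff ρ → Eff (ρ * (1 + η)) := by
  obtain ⟨K, _, _, p, R, π₀, hπ, hK, hG⟩ := exists_good
  have hK' : (0 : ℝ) < Fintype.card K := by exact_mod_cast hK
  refine ⟨π₀ ^ Fintype.card K / 2 / Fintype.card K, by positivity, ?_⟩
  rintro ρ hρ ⟨ι, _, _, S, D, σ, hO, hσ, hD⟩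
  obtain ⟨N, hN1, hN2⟩ := ((hG (ι → Bool) S hO.mean hO.var).and (eventually_gt_atTop 0)).exists
  have hO2 := hO.nfold N hN2
  have hvar := hO2.var
  rw [expect_blk (fun y => nsum (fun k => S (y k)) ^ 2)] at hvar
  obtain ⟨hg1, r, b, hb, hg2, hg3, hg4⟩ := hN1 hvar
  have hG2 : Good p R (fun x : Fin N × ι → Bool => nsum (fun k => S (blk x k))) π₀ := by
    refine ⟨fun j => ?_, r, b, hb, fun j => ?_, fun j => ?_, ?_⟩
    · rw [expect_blk (fun y => wR R j (nsum (fun k => S (y k))))]; exact hg1 j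
    · rw [expect_blk (fun y => wR R j (nsum (fun k => S (y k))) * (nsum (fun k => S (y k)) - r j))]
      exact hg2 j
    · rw [expect_blk (fun y => wR R j (nsum (fun k => S (y k))) *
        (nsum (fun k => S (y k)) - r j) ^ 2), expect_blk (fun y => wR R j (nsum (fun k => S (y k))))]
      exact hg3 j
    · refine le_trans (le_of_eq (sum_congr rfl fun j _ => ?_)) hg4
      rw [expect_blk (fun y => tau p j (nsum (fun k => S (y k))) *
        (nsum (fun k => S (y k)) - r j - 1) ^ 2), expect_blk (fun y => wR R j (nsum (fun k => S (y k)))),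
        expect_blk (fun y => tau p j (nsum (fun k => S (y k))))]
  obtain ⟨S', l, hl, hl2, hO3⟩ := hO2.star p R hπ hG2
  have hN' : (0 : ℝ) < N := by exact_mod_cast hN2
  refine ⟨_, inferInstance, inferInstance, S', _, _, hO3, by positivity, ?_⟩
  rw [mul_pow, mul_pow, Real.sq_sqrt hN'.le]
  push_cast
  calc _ = (ρ * D) * N * (Fintype.card K + π₀ ^ Fintype.card K / 2) := by field_simp
    _ ≤ _ := by
      apply mul_le_mul (mul_le_mul_of_nonneg_right hD hN'.le) hl2 <;> positivity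

lemma eff_all (ρ : ℝ) : Eff ρ := by
  obtain ⟨η, hη, h⟩ := eff_step
  have h1 : ∀ n : ℕ, Eff ((1 + η) ^ n) := by
    intro n
    induction n with
    | zero => exact ⟨Unit, inferInstance, inferInstance, _, 1, 1, obj_base, one_pos, by simp⟩
    | succ n ih => rw [pow_succ]; exact h _ (by positivity) ih
  obtain ⟨n, hn⟩ := pow_unbounded_of_one_lt ρ (show 1 < 1 + η by linarith)
  obtain ⟨ι, _, _, S, D, σ, hO, hσ, hD⟩ := h1 n
  exact ⟨ι, inferInstance, inferInstance, S, D, σ, hO, hσ,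
    (mul_le_mul_of_nonneg_right hn.le (Nat.cast_nonneg _)).trans hD⟩

lemma exists_fun (C : ℝ) (hC : 0 < C) : ∃ (ι : Type) (_ : Fintype ι) (_ : DecidableEq ι)
    (f : (ι → Bool) → Bool) (d : ℕ), (fun x => sg (f x)) ∈ Deg ι d ∧
      C * Real.sqrt d < 𝔼 x, X x * sg (f x) := by
  set q := (gaussianReal 0 1).real (Set.Ioo (1 : ℝ) 2) / 2 with hq
  have hq1 := gauss_Ioo_pos 1 2 (by norm_num)
  have hq0 : 0 < q := by positivity
  obtain ⟨ι, _, _, S, D, σ, hO, hσ, hD⟩ := eff_all ((C / q) ^ 2)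
  have hlim := clt_set S hO.mean hO.var (Set.Ioo 1 2) measurableSet_Ioo
    (by rw [frontier_Ioo (by norm_num)]; exact Set.toFinite _)
  obtain ⟨N, hN1, hN2⟩ := ((hlim.eventually (lt_mem_nhds (show q < _ by linarith))).and
    (eventually_gt_atTop 0)).exists
  have hO2 := hO.nfold N hN2
  have hN' : (0 : ℝ) < N := by exact_mod_cast hN2
  refine ⟨Fin N × ι, inferInstance, inferInstance,
    fun x => decide (0 ≤ nsum (fun k => S (blk x k))), N * D,
    hO2.deg (fun s => sg (decide (0 ≤ s))), ?_⟩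
  rw [hO2.cond (fun s => sg (decide (0 ≤ s))),
    expect_blk (fun y => nsum (fun k => S (y k)) * sg (decide (0 ≤ nsum (fun k => S (y k)))))]
  have h1 : q < 𝔼 y : Fin N → ι → Bool,
      nsum (fun k => S (y k)) * sg (decide (0 ≤ nsum (fun k => S (y k)))) := by
    refine hN1.trans_le (expect_le_expect fun y _ => ?_)
    generalize nsum (fun k => S (y k)) = t
    by_cases ht : 0 ≤ t
    · simp only [sg, ht, decide_true, if_true, mul_one]
      split_ifs with h
      · exact h.1.le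
      · exact ht
    · have : t ∉ Set.Ioo (1 : ℝ) 2 := fun h => ht (by linarith [h.1])
      simp only [sg, ht, decide_false, if_neg this]
      push Not at ht
      simp; linarith
  have h2 : C * Real.sqrt ((N * D : ℕ) : ℝ) ≤ σ * Real.sqrt N * q := by
    have h3 : C / q * Real.sqrt D ≤ σ := by
      refine (sq_le_sq₀ (by positivity) hσ.le).1 ?_
      rw [mul_pow, Real.sq_sqrt (Nat.cast_nonneg _)]
      exact hD
    push_cast
    rw [Real.sqrt_mul hN'.le]
    calc C * (Real.sqrt N * Real.sqrt D) = (C / q * Real.sqrt D) * Real.sqrt N * q := by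
          field_simp
      _ ≤ _ := by gcongr
  exact h2.trans_lt (mul_lt_mul_of_pos_left h1 (by positivity))

end

end Crest.Agent.R63
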