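import Crest.Agent.R63.Star

/-! The information gain of the star cell. -/

set_option autoImplicit false
set_option linter.unusedSectionVars false

namespace Crest.Agent.R63

open Finset
open scoped BigOperators Classical

noncomputable section

variable {K : Type} [Fintype K] [DecidableEq K] (p : ℝ → K) (R : K → Set ℝ)
variable {Ω : Type} [Fintype Ω] [Nonempty Ω] (Z : Ω → ℝ)

lemma wR_nonneg (j : K) (t : ℝ) : 0 ≤ wR R j t := by
  unfold wR; split_ifs <;> norm_num

lemma tau_nonneg (k : K) (t : ℝ) : 0 ≤ tau p k t := by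
  unfold tau; split_ifs <;> norm_num

lemma expect_WR : 𝔼 y : Option K → Ω, WR R (fun o => Z (y o)) = ∏ j, 𝔼 z, wR R j (Z z) := by
  have h := expect_prod_pi (κ := Option K)
    (fun o z => Option.elim o (1 : ℝ) (fun j => wR R j (Z z)))
  simp only [Fintype.prod_option, Option.elim_none, Option.elim_some, one_mul,
    Fintype.expect_const] at h
  exact h

/-- weights describing a line piece -/
def omL (k : K) (o : Option K) (z : Ω) : ℝ :=
  Option.elim o (tau p k (Z z)) (fun j => if j = k then 1 else wR R j (Z z))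

lemma prod_omL (k : K) (y : Option K → Ω) :
    ∏ o, omL p R Z k o (y o) = tau p k (Z (y none)) * WL R k (fun o => Z (y o)) := by
  rw [Fintype.prod_option]
  simp only [omL, Option.elim_none, Option.elim_some, WL]
  congr 1
  rw [← mul_prod_erase univ _ (mem_univ k)]
  simp only [if_true, one_mul]
  exact prod_congr rfl fun j hj => by rw [if_neg (ne_of_mem_erase hj)]

lemma prod_expect_omL_some (k : K) :
    ∏ j, 𝔼 z, omL p R Z k (some j) z = ∏ j ∈ univ.erase k, 𝔼 z, wR R j (Z z) := by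
  rw [← mul_prod_erase univ _ (mem_univ k)]
  simp only [omL, Option.elim_some, if_true, Fintype.expect_const, one_mul]
  exact prod_congr rfl fun j hj => by simp only [if_neg (ne_of_mem_erase hj)]

lemma prod_erase_none (F : Option K → ℝ) :
    ∏ o ∈ univ.erase (none : Option K), F o = ∏ j, F (some j) := by
  symm
  refine prod_bij (fun j _ => some j) ?_ ?_ ?_ ?_
  · intro j _; simp
  · intro a _ b _ h; simpa using h
  · intro o ho
    cases o with
    | none => simp at ho
    | some j => exact ⟨j, mem_univ _, rfl⟩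
  · intro j _; rfl

lemma expect_tau_WL (k : K) :
    𝔼 y : Option K → Ω, tau p k (Z (y none)) * WL R k (fun o => Z (y o))
      = (𝔼 z, tau p k (Z z)) * ∏ j ∈ univ.erase k, 𝔼 z, wR R j (Z z) := by
  simp only [← prod_omL]
  rw [expect_prod_pi, Fintype.prod_option, prod_expect_omL_some]
  rfl

lemma center_bound (h0 : 𝔼 z, Z z = 0) (h1 : 𝔼 z, Z z ^ 2 = 1) (r : K → ℝ)
    (hr : ∀ j, 𝔼 z, wR R j (Z z) * (Z z - r j) = 0) :
    2 * ∏ j, 𝔼 z, wR R j (Z z) ≤
      𝔼 y : Option K → Ω, WR R (fun o => Z (y o)) * (∑ o, Z (y o) - (∑ j, r j + 1)) ^ 2 := by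
  have h := expect_prod_sum_sq (κ := Option K)
    (fun o z => Option.elim o (1 : ℝ) (fun j => wR R j (Z z)))
    (fun o z => Option.elim o (Z z - 1) (fun j => Z z - r j)) none (by
      intro o ho
      cases o with
      | none => exact absurd rfl ho
      | some j => exact hr j)
  have h2 : 𝔼 y : Option K → Ω, WR R (fun o => Z (y o)) * (∑ o, Z (y o) - (∑ j, r j + 1)) ^ 2
      = 𝔼 y : Option K → Ω, (∏ o, Option.elim o (1 : ℝ) (fun j => wR R j (Z (y o)))) *
        (∑ o, Option.elim o (Z (y o) - 1) (fun j => Z (y o) - r j)) ^ 2 := by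
    refine expect_congr rfl fun y _ => ?_
    simp only [Fintype.prod_option, Fintype.sum_option, Option.elim_none, Option.elim_some,
      one_mul, WR, sum_sub_distrib]
    ring
  rw [h2, h, Fintype.sum_option, prod_erase_none]
  simp only [Option.elim_none, Option.elim_some, one_mul]
  have h3 : 𝔼 z, (Z z - 1) ^ 2 = 2 := by
    have : ∀ z, (Z z - 1) ^ 2 = Z z ^ 2 - 2 * Z z + 1 := fun z => by ring
    simp only [this]
    rw [expect_add_distrib, expect_sub_distrib, ← mul_expect, h0, h1, Fintype.expect_const]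
    norm_num
  rw [h3]
  refine le_add_of_nonneg_right (sum_nonneg fun j _ => mul_nonneg ?_ ?_)
  · exact expect_nonneg fun z _ => mul_nonneg (wR_nonneg R _ _) (sq_nonneg _)
  · refine prod_nonneg fun o _ => expect_nonneg fun z _ => ?_
    cases o with
    | none => simp
    | some j => exact wR_nonneg R _ _

lemma line_bound (h0 : 𝔼 z, Z z = 0) (h1 : 𝔼 z, Z z ^ 2 = 1) (r : K → ℝ) (b : ℝ) (hb : 0 ≤ b)
    (hr : ∀ j, 𝔼 z, wR R j (Z z) * (Z z - r j) = 0)
    (hv : ∀ j, 𝔼 z, wR R j (Z z) * (Z z - r j) ^ 2 ≤ b * 𝔼 z, wR R j (Z z)) (k : K) :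
    𝔼 y : Option K → Ω, (tau p k (Z (y none)) * WL R k (fun o => Z (y o))) *
        (∑ o, Z (y o) - (∑ j, r j + 1)) ^ 2 ≤
      (∏ j ∈ univ.erase k, 𝔼 z, wR R j (Z z)) *
        ((𝔼 z, tau p k (Z z) * (Z z - r k - 1) ^ 2) +
          (𝔼 z, tau p k (Z z)) * (1 + Fintype.card K * b)) := by
  have h := expect_prod_sum_sq (κ := Option K) (omL p R Z k)
    (fun o z => Option.elim o (Z z - r k - 1) (fun j => if j = k then Z z else Z z - r j)) none (by
      intro o ho
      cases o with
      | none => exact absurd rfl ho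
      | some j =>
        by_cases hj : j = k
        · simp only [omL, Option.elim_some, if_pos hj, one_mul, h0]
        · simp only [omL, Option.elim_some, if_neg hj, hr j])
  have h2 : 𝔼 y : Option K → Ω, (tau p k (Z (y none)) * WL R k (fun o => Z (y o))) *
        (∑ o, Z (y o) - (∑ j, r j + 1)) ^ 2
      = 𝔼 y : Option K → Ω, (∏ o, omL p R Z k o (y o)) *
        (∑ o, Option.elim o (Z (y o) - r k - 1)
          (fun j => if j = k then Z (y o) else Z (y o) - r j)) ^ 2 := by
    refine expect_congr rfl fun y _ => ?_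
    rw [prod_omL]
    congr 2
    simp only [Fintype.sum_option, Option.elim_none, Option.elim_some]
    have : ∀ j, (if j = k then Z (y (some j)) else Z (y (some j)) - r j)
        = Z (y (some j)) - r j + (if j = k then r j else 0) := fun j => by
      split_ifs <;> ring
    simp only [this, sum_add_distrib, sum_sub_distrib, sum_ite_eq', mem_univ, if_true]
    ring
  rw [h2, h, Fintype.sum_option, prod_erase_none, prod_expect_omL_some]
  set PL := ∏ j ∈ univ.erase k, 𝔼 z, wR R j (Z z) with hPL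
  set Q := 𝔼 z, tau p k (Z z) with hQ
  have hQ0 : 0 ≤ Q := expect_nonneg fun z _ => tau_nonneg p _ _
  have hPL0 : 0 ≤ PL := prod_nonneg fun j _ => expect_nonneg fun z _ => wR_nonneg R _ _
  have hall : ∏ o, 𝔼 z, omL p R Z k o z = Q * PL := by
    rw [Fintype.prod_option, prod_expect_omL_some]; rfl
  have hom : ∀ o, 0 ≤ 𝔼 z, omL p R Z k o z := by
    intro o
    refine expect_nonneg fun z _ => ?_
    cases o with
    | none => exact tau_nonneg p _ _
    | some j =>
      simp only [omL, Option.elim_some]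
      split_ifs
      · norm_num
      · exact wR_nonneg R _ _
  have hterm : ∀ j, (𝔼 z, omL p R Z k (some j) z *
      (Option.elim (some j) (Z z - r k - 1) (fun j => if j = k then Z z else Z z - r j)) ^ 2) *
      ∏ o ∈ univ.erase (some j), 𝔼 z, omL p R Z k o z
        ≤ ((if j = k then 1 else 0) + b) * (Q * PL) := by
    intro j
    rw [← hall, ← mul_prod_erase univ _ (mem_univ (some j)), ← mul_assoc]
    refine mul_le_mul_of_nonneg_right ?_ (prod_nonneg fun o _ => hom o)
    by_cases hj : j = k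
    · simp only [omL, Option.elim_some, if_pos hj, one_mul, h1, Fintype.expect_const]
      linarith
    · simp only [omL, Option.elim_some, if_neg hj, zero_add]
      exact hv j
  have hsum := sum_le_sum (fun j (_ : j ∈ univ) => hterm j)
  rw [← sum_mul, sum_add_distrib] at hsum
  simp only [sum_ite_eq', mem_univ, if_true, sum_const, card_univ, nsmul_eq_mul] at hsum
  have h5 : (𝔼 z, omL p R Z k none z *
      (Option.elim none (Z z - r k - 1) (fun j => if j = k then Z z else Z z - r j)) ^ 2)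
      = 𝔼 z, tau p k (Z z) * (Z z - r k - 1) ^ 2 := rfl
  rw [h5]
  nlinarith [hsum]

/-- The hypotheses under which the star cell gains information. -/
def Good (Z : Ω → ℝ) (π₀ : ℝ) : Prop :=
  (∀ j, π₀ ≤ 𝔼 z, wR R j (Z z)) ∧ ∃ (r : K → ℝ) (b : ℝ), 0 ≤ b ∧
    (∀ j, 𝔼 z, wR R j (Z z) * (Z z - r j) = 0) ∧
    (∀ j, 𝔼 z, wR R j (Z z) * (Z z - r j) ^ 2 ≤ b * 𝔼 z, wR R j (Z z)) ∧
    ∑ k, ((𝔼 z, tau p k (Z z) * (Z z - r k - 1) ^ 2) +
      (𝔼 z, tau p k (Z z)) * (Fintype.card K * b)) / (𝔼 z, wR R k (Z z)) ≤ 1 / 2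

lemma star_gain (h0 : 𝔼 z, Z z = 0) (h1 : 𝔼 z, Z z ^ 2 = 1) {π₀ : ℝ} (hπ : 0 < π₀)
    (hG : Good p R Z π₀) (c : ℝ)
    (hc : 𝔼 y : Option K → Ω, WA p R (fun o => Z (y o)) * (∑ o, Z (y o) - c) = 0) :
    Fintype.card K + π₀ ^ Fintype.card K / 2 ≤
      𝔼 y : Option K → Ω, Psi p R c (fun o => Z (y o)) ^ 2 := by
  obtain ⟨hP, r, b, hb, hr, hv, hsum⟩ := hG
  set PP := ∏ j, 𝔼 z, wR R j (Z z) with hPP
  have hPPlow : π₀ ^ Fintype.card K ≤ PP := by
    rw [hPP, ← card_univ, ← prod_const]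
    exact prod_le_prod (fun _ _ => hπ.le) (fun j _ => hP j)
  have hPP0 : 0 < PP := lt_of_lt_of_le (pow_pos hπ _) hPPlow
  -- residual variance
  have hres := Psi_resid p R Z c (fun a => a ^ 2) (fun _ => 1)
  simp only [mul_one, h1, one_mul] at hres
  rw [expect_WR] at hres
  have hlines : ∑ k, 𝔼 y : Option K → Ω, tau p k (Z (y none)) * (1 - WL R k (fun o => Z (y o)))
      = 1 - ∑ k, (𝔼 z, tau p k (Z z)) * ∏ j ∈ univ.erase k, 𝔼 z, wR R j (Z z) := by
    simp only [mul_sub, mul_one, expect_sub_distrib, sum_sub_distrib, expect_tau_WL]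
    congr 1
    rw [← expect_sum_comm]
    have : ∀ y : Option K → Ω, ∑ k, tau p k (Z (y none)) = 1 := fun y => by
      simpa using sum_tau_mul p (Z (y none)) (fun _ => 1)
    simp only [this, Fintype.expect_const]
  set xb := ∑ j, r j + 1 with hxb
  have hA : 𝔼 y : Option K → Ω, WA p R (fun o => Z (y o)) * (∑ o, Z (y o) - c) ^ 2 ≤
      𝔼 y : Option K → Ω, WA p R (fun o => Z (y o)) * (∑ o, Z (y o) - xb) ^ 2 := by
    have : ∀ y : Option K → Ω, WA p R (fun o => Z (y o)) * (∑ o, Z (y o) - xb) ^ 2 =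
        WA p R (fun o => Z (y o)) * (∑ o, Z (y o) - c) ^ 2 +
        (2 * (c - xb)) * (WA p R (fun o => Z (y o)) * (∑ o, Z (y o) - c)) +
        WA p R (fun o => Z (y o)) * (c - xb) ^ 2 := fun y => by ring
    simp only [this]
    rw [expect_add_distrib, expect_add_distrib, ← mul_expect, hc, mul_zero, add_zero]
    exact le_add_of_nonneg_right (expect_nonneg fun y _ =>
      mul_nonneg (WA_nonneg p R _) (sq_nonneg _))
  have hA2 : 𝔼 y : Option K → Ω, WA p R (fun o => Z (y o)) * (∑ o, Z (y o) - xb) ^ 2 =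
      ∑ k, (𝔼 y : Option K → Ω, (tau p k (Z (y none)) * WL R k (fun o => Z (y o))) *
        (∑ o, Z (y o) - xb) ^ 2) -
      𝔼 y : Option K → Ω, WR R (fun o => Z (y o)) * (∑ o, Z (y o) - xb) ^ 2 := by
    rw [← expect_sum_comm, ← expect_sub_distrib]
    refine expect_congr rfl fun y _ => ?_
    rw [WA, sub_mul, sum_mul]
  have hc1 := center_bound R Z h0 h1 r hr
  have hl1 := sum_le_sum (fun k (_ : k ∈ univ) => line_bound p R Z h0 h1 r b hb hr hv k)
  have hl2 : ∑ k, (∏ j ∈ univ.erase k, 𝔼 z, wR R j (Z z)) *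
        ((𝔼 z, tau p k (Z z) * (Z z - r k - 1) ^ 2) +
          (𝔼 z, tau p k (Z z)) * (1 + Fintype.card K * b)) =
      ∑ k, (𝔼 z, tau p k (Z z)) * ∏ j ∈ univ.erase k, 𝔼 z, wR R j (Z z) +
      PP * ∑ k, ((𝔼 z, tau p k (Z z) * (Z z - r k - 1) ^ 2) +
      (𝔼 z, tau p k (Z z)) * (Fintype.card K * b)) / (𝔼 z, wR R k (Z z)) := by
    rw [mul_sum, ← sum_add_distrib]
    refine sum_congr rfl fun k _ => ?_
    have hk : 0 < 𝔼 z, wR R k (Z z) := lt_of_lt_of_le hπ (hP k)
    rw [hPP, ← mul_prod_erase univ _ (mem_univ k)]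
    field_simp
    ring
  have hl3 := mul_le_mul_of_nonneg_left hsum hPP0.le
  have hresid : 𝔼 y : Option K → Ω, (∑ o, Z (y o) - Psi p R c (fun o => Z (y o))) ^ 2
      ≤ 1 - PP / 2 := by
    rw [hres, hlines]
    linarith
  have hcond := Psi_cond p R Z h0 c hc (fun a => a)
  have htot := expect_sum_sq (κ := Option K) Z h0 h1
  rw [Fintype.card_option] at htot
  have hexp : 𝔼 y : Option K → Ω, (∑ o, Z (y o) - Psi p R c (fun o => Z (y o))) ^ 2 =
      (𝔼 y : Option K → Ω, (∑ o, Z (y o)) ^ 2) -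
      2 * (𝔼 y : Option K → Ω, (∑ o, Z (y o)) * Psi p R c (fun o => Z (y o))) +
      𝔼 y : Option K → Ω, Psi p R c (fun o => Z (y o)) ^ 2 := by
    rw [mul_expect, ← expect_sub_distrib, ← expect_add_distrib]
    exact expect_congr rfl fun y _ => by ring
  simp only [← sq] at hcond
  rw [hexp, hcond, htot] at hresid
  push_cast at hresid
  linarith

/-- One step of the construction. -/
lemma Obj.star {ι : Type} [Fintype ι] [DecidableEq ι] {S : (ι → Bool) → ℝ} {D : ℕ} {σ : ℝ}
    (h : Obj ι S D σ) {π₀ : ℝ} (hπ : 0 < π₀) (hG : Good p R S π₀) :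
    ∃ (S' : (Option K × ι → Bool) → ℝ) (l : ℝ), 0 < l ∧
      Fintype.card K + π₀ ^ Fintype.card K / 2 ≤ l ^ 2 ∧
      Obj (Option K × ι) S' (Fintype.card K * D) (σ * l) := by
  obtain ⟨c, hc⟩ := exists_center p R S
  have hg := star_gain p R S h.mean h.var hπ hG c hc
  set v := 𝔼 y : Option K → ι → Bool, Psi p R c (fun o => S (y o)) ^ 2 with hv
  have hv0 : 0 < v := lt_of_lt_of_le (by positivity) hg
  have hl : 0 < Real.sqrt v := Real.sqrt_pos.2 hv0
  refine ⟨_, Real.sqrt v, hl, by rwa [Real.sq_sqrt hv0.le],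
    h.transform (fun s => (Real.sqrt v)⁻¹ * Psi p R c s) _ _ ?_ ?_ ?_ ?_⟩
  · intro φ
    exact Psi_deg p R h.deg c (fun a => φ ((Real.sqrt v)⁻¹ * a))
  · intro φ
    rw [Psi_cond p R S h.mean c hc (fun a => φ ((Real.sqrt v)⁻¹ * a)), mul_expect]
    refine expect_congr rfl fun y _ => ?_
    field_simp
  · rw [← mul_expect]
    have := Psi_cond p R S h.mean c hc (fun _ => 1)
    simp only [mul_one] at this
    rw [← this, expect_sum_zero S h.mean, mul_zero]
  · simp only [mul_pow]
    rw [← mul_expect, ← hv, inv_pow, Real.sq_sqrt hv0.le]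
    exact inv_mul_cancel₀ hv0.ne'

end

end Crest.Agent.R63
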