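import Crest.Agent.R63.Deg

/-! Averages over finite product spaces and the notion of an object. -/

set_option autoImplicit false

namespace Crest.Agent.R63

open Finset
open scoped BigOperators

noncomputable section

section prod
variable {κ Ω : Type} [Fintype κ] [DecidableEq κ] [Fintype Ω] [Nonempty Ω]

lemma expect_update (F : (κ → Ω) → ℝ) (k : κ) :
    𝔼 y : κ → Ω, F y = 𝔼 y : κ → Ω, 𝔼 z : Ω, F (Function.update y k z) := by
  let e : ((κ → Ω) × Ω) ≃ ((κ → Ω) × Ω) :=
    { toFun := fun p => (Function.update p.1 k p.2, p.1 k)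
      invFun := fun p => (Function.update p.1 k p.2, p.1 k)
      left_inv := fun p => by simp
      right_inv := fun p => by simp }
  have h1 : 𝔼 y : κ → Ω, 𝔼 z : Ω, F (Function.update y k z)
      = 𝔼 p : (κ → Ω) × Ω, F (Function.update p.1 k p.2) := by
    rw [← univ_product_univ, expect_product]
  have h2 : 𝔼 p : (κ → Ω) × Ω, F (Function.update p.1 k p.2) = 𝔼 p : (κ → Ω) × Ω, F p.1 :=
    Fintype.expect_equiv e _ _ (fun p => rfl)
  have h3 : 𝔼 p : (κ → Ω) × Ω, F p.1 = 𝔼 y : κ → Ω, F y := by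
    rw [← univ_product_univ, expect_product]
    simp only [Fintype.expect_const]
  rw [h1, h2, h3]

lemma expect_indep (g : Ω → ℝ) (G : (κ → Ω) → ℝ) (k : κ)
    (hG : ∀ y z, G (Function.update y k z) = G y) :
    𝔼 y : κ → Ω, g (y k) * G y = (𝔼 z, g z) * 𝔼 y, G y := by
  rw [expect_update _ k]
  simp only [Function.update_self, hG]
  simp only [← expect_mul]
  rw [← mul_expect]

lemma expect_coord (g : Ω → ℝ) (k : κ) : 𝔼 y : κ → Ω, g (y k) = 𝔼 z, g z := by
  have := expect_indep g (fun _ : κ → Ω => (1 : ℝ)) k (fun _ _ => rfl)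
  simpa [Fintype.expect_const] using this

omit [Nonempty Ω] in
lemma expect_prod_pi (g : κ → Ω → ℝ) :
    𝔼 y : κ → Ω, ∏ k, g k (y k) = ∏ k, 𝔼 z, g k z := by
  simp only [Fintype.expect_eq_sum_div_card, prod_div_distrib, prod_const, card_univ]
  rw [Fintype.prod_sum]
  simp

end prod

lemma expect_blk {κ ι : Type} [Fintype κ] [DecidableEq κ] [Fintype ι] [DecidableEq ι]
    (F : (κ → ι → Bool) → ℝ) :
    𝔼 x : κ × ι → Bool, F (blk x) = 𝔼 y : κ → ι → Bool, F y :=
  Fintype.expect_equiv (Equiv.curry κ ι Bool) _ _ (fun _ => rfl)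

/-- the linear form -/
def X {ι : Type} [Fintype ι] (x : ι → Bool) : ℝ := ∑ i, sg (x i)

lemma X_blk {κ ι : Type} [Fintype κ] [Fintype ι] (x : κ × ι → Bool) :
    X x = ∑ k, X (blk x k) := by
  simp only [X, blk]
  rw [← univ_product_univ, sum_product]

/-- A normalised statistic `S` all of whose functions have degree at most `D`, with
`E[X | S] = σ S`. -/
structure Obj (ι : Type) [Fintype ι] [DecidableEq ι] (S : (ι → Bool) → ℝ) (D : ℕ) (σ : ℝ) :
    Prop where
  deg : ∀ φ : ℝ → ℝ, (fun x => φ (S x)) ∈ Deg ι D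
  cond : ∀ φ : ℝ → ℝ, 𝔼 x, X x * φ (S x) = σ * 𝔼 x, S x * φ (S x)
  mean : 𝔼 x, S x = 0
  var : 𝔼 x, S x ^ 2 = 1

lemma Obj.cond_multi {κ ι : Type} [Fintype κ] [DecidableEq κ] [Fintype ι] [DecidableEq ι]
    {S : (ι → Bool) → ℝ} {D : ℕ} {σ : ℝ} (h : Obj ι S D σ) (G : (κ → ℝ) → ℝ) :
    𝔼 y : κ → ι → Bool, (∑ k, X (y k)) * G (fun k => S (y k))
      = σ * 𝔼 y : κ → ι → Bool, (∑ k, S (y k)) * G (fun k => S (y k)) := by
  simp only [sum_mul]
  rw [expect_sum_comm, expect_sum_comm, mul_sum]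
  refine sum_congr rfl fun k _ => ?_
  rw [expect_update _ k, expect_update (fun y : κ → ι → Bool => S (y k) * G (fun k => S (y k))) k,
    mul_expect]
  refine expect_congr rfl fun y _ => ?_
  have h1 : ∀ z : ι → Bool, (fun j => S (Function.update y k z j))
      = Function.update (fun j => S (y j)) k (S z) := by
    intro z
    ext j
    by_cases hj : j = k
    · subst hj; simp
    · simp [Function.update_of_ne hj]
  simp only [Function.update_self, h1]
  exact h.cond (fun s => G (Function.update (fun j => S (y j)) k s))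

lemma Obj.transform {κ ι : Type} [Fintype κ] [DecidableEq κ] [Fintype ι] [DecidableEq ι]
    {S : (ι → Bool) → ℝ} {D : ℕ} {σ : ℝ} (h : Obj ι S D σ) (Ψ : (κ → ℝ) → ℝ) (D' : ℕ) (τ : ℝ)
    (hdeg : ∀ φ : ℝ → ℝ, (fun x : κ × ι → Bool => φ (Ψ (fun k => S (blk x k)))) ∈ Deg (κ × ι) D')
    (hcond : ∀ φ : ℝ → ℝ, 𝔼 y : κ → ι → Bool, (∑ k, S (y k)) * φ (Ψ (fun k => S (y k)))
      = τ * 𝔼 y : κ → ι → Bool, Ψ (fun k => S (y k)) * φ (Ψ (fun k => S (y k))))
    (hmean : 𝔼 y : κ → ι → Bool, Ψ (fun k => S (y k)) = 0)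
    (hvar : 𝔼 y : κ → ι → Bool, Ψ (fun k => S (y k)) ^ 2 = 1) :
    Obj (κ × ι) (fun x => Ψ (fun k => S (blk x k))) D' (σ * τ) where
  deg := hdeg
  cond φ := by
    simp only [X_blk]
    rw [expect_blk (fun y => (∑ k, X (y k)) * φ (Ψ (fun k => S (y k)))),
      expect_blk (fun y => Ψ (fun k => S (y k)) * φ (Ψ (fun k => S (y k)))),
      h.cond_multi (fun s => φ (Ψ s)), hcond, mul_assoc]
  mean := by rw [expect_blk (fun y => Ψ (fun k => S (y k))), hmean]
  var := by rw [expect_blk (fun y => Ψ (fun k => S (y k)) ^ 2), hvar]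

lemma obj_base : Obj Unit (fun x => sg (x ())) 1 1 where
  deg φ := IsJunta.mem ⟨univ, by simp, fun x y h => by simp only [h () (mem_univ _)]⟩
  cond φ := by simp [X]
  mean := by
    rw [Fintype.expect_equiv (Equiv.funUnique Unit Bool) (fun x => sg (x ())) sg (fun _ => rfl),
      Fintype.expect_eq_sum_div_card]
    simp [sg]
  var := by
    rw [Fintype.expect_equiv (Equiv.funUnique Unit Bool) (fun x => sg (x ()) ^ 2)
      (fun b => sg b ^ 2) (fun _ => rfl)]
    simp [sg]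

/-- orthogonal sum lemma under a weight -/
lemma expect_weight_sum_sq {A J : Type} [Fintype A] [Fintype J] [DecidableEq J]
    (W : A → ℝ) (u : J → A → ℝ)
    (horth : ∀ j l, j ≠ l → 𝔼 a, W a * (u j a * u l a) = 0) :
    𝔼 a, W a * (∑ j, u j a) ^ 2 = ∑ j, 𝔼 a, W a * u j a ^ 2 := by
  have h1 : ∀ a, W a * (∑ j, u j a) ^ 2 = ∑ j, ∑ l, W a * (u j a * u l a) := by
    intro a
    rw [sq, sum_mul_sum, mul_sum]
    refine sum_congr rfl fun j _ => ?_
    rw [mul_sum]
  simp only [h1]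
  rw [expect_sum_comm]
  refine sum_congr rfl fun j _ => ?_
  rw [expect_sum_comm, sum_eq_single j]
  · simp only [sq]
  · intro l _ hl
    exact horth j l (Ne.symm hl)
  · simp

/-- second moment of a sum of independent centred copies -/
lemma expect_sum_sq {κ Ω : Type} [Fintype κ] [DecidableEq κ] [Fintype Ω] [Nonempty Ω]
    (Z : Ω → ℝ) (h0 : 𝔼 z, Z z = 0) (h1 : 𝔼 z, Z z ^ 2 = 1) :
    𝔼 y : κ → Ω, (∑ k, Z (y k)) ^ 2 = Fintype.card κ := by
  have := expect_weight_sum_sq (fun _ : κ → Ω => (1 : ℝ)) (fun k y => Z (y k)) ?_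
  · simp only [one_mul] at this
    rw [this]
    simp only [expect_coord (fun z => Z z ^ 2), h1]
    simp
  · intro j l hjl
    simp only [one_mul]
    rw [expect_indep Z (fun y => Z (y l)) j, h0, zero_mul]
    intro y z
    simp [Function.update_of_ne (Ne.symm hjl)]

lemma expect_sum_zero {κ Ω : Type} [Fintype κ] [DecidableEq κ] [Fintype Ω] [Nonempty Ω]
    (Z : Ω → ℝ) (h0 : 𝔼 z, Z z = 0) :
    𝔼 y : κ → Ω, (∑ k, Z (y k)) = 0 := by
  rw [expect_sum_comm]
  simp only [expect_coord Z, h0]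
  simp

/-- The normalised `N`-fold sum. -/
def nsum {N : ℕ} (s : Fin N → ℝ) : ℝ := (Real.sqrt N)⁻¹ * ∑ k, s k

lemma Obj.nfold {ι : Type} [Fintype ι] [DecidableEq ι]
    {S : (ι → Bool) → ℝ} {D : ℕ} {σ : ℝ} (h : Obj ι S D σ) (N : ℕ) (hN : 0 < N) :
    Obj (Fin N × ι) (fun x => nsum (fun k => S (blk x k))) (N * D) (σ * Real.sqrt N) := by
  have hs : 0 < Real.sqrt N := Real.sqrt_pos.2 (by exact_mod_cast hN)
  refine h.transform nsum _ _ ?_ ?_ ?_ ?_
  · intro φ
    have := multi_mem_Deg h.deg (univ : Finset (Fin N)) (fun s => φ (nsum s))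
      (fun s t hst => by rw [show s = t from funext fun k => hst k (mem_univ _)])
    simpa using this
  · intro φ
    rw [mul_expect]
    refine expect_congr rfl fun y _ => ?_
    simp only [nsum]
    field_simp
  · simp only [nsum]
    rw [← mul_expect, expect_sum_zero S h.mean, mul_zero]
  · simp only [nsum, mul_pow]
    rw [← mul_expect, expect_sum_sq S h.mean h.var, inv_pow, Real.sq_sqrt (Nat.cast_nonneg _)]
    simp only [Fintype.card_fin]
    exact inv_mul_cancel₀ (by exact_mod_cast hN.ne')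

end

end Crest.Agent.R63
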