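import Crest.Agent.R63.Prod

/-! The star cell: a partition of a product of `m+1` objects into cells of degree `m D`. -/

set_option autoImplicit false
set_option linter.unusedSectionVars false

namespace Crest.Agent.R63

open Finset
open scoped BigOperators Classical

noncomputable section

section gen
variable {κ Ω : Type} [Fintype κ] [DecidableEq κ] [Fintype Ω] [Nonempty Ω]

omit [Nonempty Ω] in
lemma expect_prod_mul (ω : κ → Ω → ℝ) (g : Ω → ℝ) (o : κ) :
    𝔼 y : κ → Ω, (∏ k, ω k (y k)) * g (y o)
      = (𝔼 z, ω o z * g z) * ∏ k ∈ univ.erase o, 𝔼 z, ω k z := by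
  have h := expect_prod_pi (Function.update ω o (fun z => ω o z * g z))
  rw [← mul_prod_erase univ _ (mem_univ o)] at h
  simp only [Function.update_self] at h
  have h2 : ∏ k ∈ univ.erase o, 𝔼 z, Function.update ω o (fun z => ω o z * g z) k z
      = ∏ k ∈ univ.erase o, 𝔼 z, ω k z :=
    prod_congr rfl fun k hk => by rw [Function.update_of_ne (ne_of_mem_erase hk)]
  rw [h2] at h
  rw [← h]
  refine expect_congr rfl fun y _ => ?_
  rw [← mul_prod_erase univ _ (mem_univ o), ← mul_prod_erase univ _ (mem_univ o)]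
  simp only [Function.update_self]
  have h3 : ∏ k ∈ univ.erase o, Function.update ω o (fun z => ω o z * g z) k (y k)
      = ∏ k ∈ univ.erase o, ω k (y k) :=
    prod_congr rfl fun k hk => by rw [Function.update_of_ne (ne_of_mem_erase hk)]
  rw [h3]; ring

lemma expect_prod_cross (ω : κ → Ω → ℝ) (g g' : Ω → ℝ) (o o' : κ) (hne : o ≠ o')
    (h0 : 𝔼 z, ω o z * g z = 0) :
    𝔼 y : κ → Ω, (∏ k, ω k (y k)) * (g (y o) * g' (y o')) = 0 := by
  have h := expect_indep (fun z => ω o z * g z)
    (fun y : κ → Ω => (∏ k ∈ univ.erase o, ω k (y k)) * g' (y o')) o ?_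
  · rw [h0, zero_mul] at h
    rw [← h]
    refine expect_congr rfl fun y _ => ?_
    rw [← mul_prod_erase univ _ (mem_univ o)]
    ring
  · intro y z
    rw [Function.update_of_ne (Ne.symm hne)]
    congr 1
    exact prod_congr rfl fun k hk => by rw [Function.update_of_ne (ne_of_mem_erase hk)]

lemma expect_prod_sum_sq (ω u : κ → Ω → ℝ) (k0 : κ)
    (h0 : ∀ o, o ≠ k0 → 𝔼 z, ω o z * u o z = 0) :
    𝔼 y : κ → Ω, (∏ k, ω k (y k)) * (∑ o, u o (y o)) ^ 2
      = ∑ o, (𝔼 z, ω o z * u o z ^ 2) * ∏ k ∈ univ.erase o, 𝔼 z, ω k z := by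
  rw [expect_weight_sum_sq (fun y : κ → Ω => ∏ k, ω k (y k)) (fun o y => u o (y o))]
  · exact sum_congr rfl fun o _ => expect_prod_mul ω (fun z => u o z ^ 2) o
  · intro j l hjl
    by_cases hj : j = k0
    · have hl : l ≠ k0 := fun h => hjl (hj.trans h.symm)
      have := expect_prod_cross ω (u l) (u j) l j (Ne.symm hjl) (h0 l hl)
      rw [← this]
      exact expect_congr rfl fun y _ => by ring
    · exact expect_prod_cross ω (u j) (u l) j l hjl (h0 j hj)

end gen

section star
variable {K : Type} [Fintype K] [DecidableEq K] (p : ℝ → K) (R : K → Set ℝ)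

/-- indicator of `R j` -/
def wR (j : K) (t : ℝ) : ℝ := if t ∈ R j then 1 else 0

/-- indicator of the group `k` -/
def tau (k : K) (t : ℝ) : ℝ := if p t = k then 1 else 0

/-- indicator of the centre box -/
def WR (s : Option K → ℝ) : ℝ := ∏ j, wR R j (s (some j))

/-- indicator of the centre box freed in direction `k` -/
def WL (k : K) (s : Option K → ℝ) : ℝ := ∏ j ∈ univ.erase k, wR R j (s (some j))

/-- indicator of the star cell -/
def WA (s : Option K → ℝ) : ℝ := ∑ k, tau p k (s none) * WL R k s - WR R s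

/-- the conditional mean on the cells -/
def Psi (c : ℝ) (s : Option K → ℝ) : ℝ :=
  if ∀ j, s (some j) ∈ R j then ∑ j, s (some j)
  else if ∀ j, j ≠ p (s none) → s (some j) ∈ R j then c
  else s none + ∑ j ∈ univ.erase (p (s none)), s (some j)

omit [DecidableEq K] in
lemma WR_eq (s : Option K → ℝ) : WR R s = if ∀ j, s (some j) ∈ R j then 1 else 0 := by
  simp only [WR, wR, prod_boole, mem_univ, true_implies]

lemma WL_eq (k : K) (s : Option K → ℝ) :
    WL R k s = if ∀ j, j ≠ k → s (some j) ∈ R j then 1 else 0 := by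
  simp only [WL, wR, prod_boole, mem_erase, mem_univ, and_true]

lemma sum_tau_mul (t : ℝ) (F : K → ℝ) : ∑ k, tau p k t * F k = F (p t) := by
  simp [tau]

lemma WA_nonneg (s : Option K → ℝ) : 0 ≤ WA p R s := by
  rw [WA, sum_tau_mul p _ (fun k => WL R k s), WR_eq, WL_eq]
  by_cases h1 : ∀ j, s (some j) ∈ R j
  · rw [if_pos h1, if_pos (fun j _ => h1 j)]; norm_num
  · rw [if_neg h1]; split_ifs <;> norm_num

lemma Psi_decomp (c : ℝ) (H : ℝ → ℝ → ℝ) (s : Option K → ℝ) :
    H (∑ o, s o - Psi p R c s) (Psi p R c s) =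
      WR R s * H (s none) (∑ j, s (some j)) + WA p R s * H (∑ o, s o - c) c +
      ∑ k, tau p k (s none) * ((1 - WL R k s) *
        H (s (some k)) (s none + ∑ j ∈ univ.erase k, s (some j))) := by
  rw [WA, sum_tau_mul p _ (fun k => WL R k s), sum_tau_mul p _ (fun k => (1 - WL R k s) *
        H (s (some k)) (s none + ∑ j ∈ univ.erase k, s (some j))), WR_eq, WL_eq, Psi]
  by_cases h1 : ∀ j, s (some j) ∈ R j
  · rw [if_pos h1, if_pos h1, if_pos (fun j _ => h1 j), Fintype.sum_option]
    simp
  · rw [if_neg h1, if_neg h1]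
    by_cases h2 : ∀ j, j ≠ p (s none) → s (some j) ∈ R j
    · rw [if_pos h2, if_pos h2]; simp
    · rw [if_neg h2, if_neg h2, Fintype.sum_option,
        ← add_sum_erase univ (fun j => s (some j)) (mem_univ (p (s none)))]
      simp

lemma WR_congr {s t : Option K → ℝ} (h : ∀ j, s (some j) = t (some j)) : WR R s = WR R t := by
  simp only [WR, h]

lemma WL_congr (k : K) {s t : Option K → ℝ} (h : ∀ j, j ≠ k → s (some j) = t (some j)) :
    WL R k s = WL R k t :=
  prod_congr rfl fun j hj => by rw [h j (ne_of_mem_erase hj)]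

lemma Psi_deg {ι : Type} [Fintype ι] [DecidableEq ι] {D : ℕ} {S : (ι → Bool) → ℝ}
    (hS : ∀ φ : ℝ → ℝ, (fun x => φ (S x)) ∈ Deg ι D) (c : ℝ) (φ : ℝ → ℝ) :
    (fun x : Option K × ι → Bool => φ (Psi p R c (fun k => S (blk x k))))
      ∈ Deg (Option K × ι) (Fintype.card K * D) := by
  have hcard : ∀ o : Option K, (univ.erase o).card = Fintype.card K := by
    intro o
    rw [card_erase_of_mem (mem_univ _), card_univ, Fintype.card_option]
    simp
  have h0 := multi_mem_Deg hS (univ.erase (none : Option K))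
    (fun s => WR R s * (φ (∑ j, s (some j)) - φ c)) (by
      intro s t hst
      have : ∀ j, s (some j) = t (some j) := fun j => hst _ (by simp)
      simp only [WR_congr R this, this])
  have h1 := fun k : K => multi_mem_Deg hS (univ.erase (some k : Option K))
    (fun s => tau p k (s none) * (WL R k s * φ c + (1 - WL R k s) *
      φ (s none + ∑ j ∈ univ.erase k, s (some j)))) (by
      intro s t hst
      have h2 : ∀ j, j ≠ k → s (some j) = t (some j) := fun j hj => hst _ (by simpa using hj)
      have h3 : s none = t none := hst _ (by simp)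
      have h4 : ∑ j ∈ univ.erase k, s (some j) = ∑ j ∈ univ.erase k, t (some j) :=
        sum_congr rfl fun j hj => h2 j (ne_of_mem_erase hj)
      simp only [WL_congr R k h2, h3, h4])
  simp only [hcard] at h0 h1
  have h2 := add_mem h0 (Submodule.sum_mem _ (fun k (_ : k ∈ univ) => h1 k))
  convert h2 using 1
  ext x
  rw [Psi_decomp p R c (fun _ b => φ b)]
  simp only [Pi.add_apply, Finset.sum_apply, WA, mul_add, sum_add_distrib, sub_mul, sum_mul,
    mul_assoc]
  ring

variable {Ω : Type} [Fintype Ω] [Nonempty Ω] (Z : Ω → ℝ)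

lemma exists_center : ∃ c : ℝ,
    𝔼 y : Option K → Ω, WA p R (fun o => Z (y o)) * (∑ o, Z (y o) - c) = 0 := by
  by_cases h : 𝔼 y : Option K → Ω, WA p R (fun o => Z (y o)) = 0
  · refine ⟨0, ?_⟩
    rw [expect_eq_zero_iff_of_nonneg (fun y _ => WA_nonneg p R _)] at h
    exact expect_eq_zero fun y hy => by rw [h y hy, zero_mul]
  · refine ⟨(𝔼 y : Option K → Ω, WA p R (fun o => Z (y o)) * ∑ o, Z (y o)) /
      𝔼 y : Option K → Ω, WA p R (fun o => Z (y o)), ?_⟩
    simp only [mul_sub]
    rw [expect_sub_distrib, ← expect_mul]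
    field_simp
    ring

omit [Fintype Ω] [Nonempty Ω] in
lemma upd_some (y : Option K → Ω) (k : K) (z : Ω) (j : K) (hj : j ≠ k) :
    Z (Function.update y (some k) z (some j)) = Z (y (some j)) := by
  rw [Function.update_of_ne (by simpa using hj)]

lemma Psi_resid (c : ℝ) (g : ℝ → ℝ) (φ : ℝ → ℝ) :
    𝔼 y : Option K → Ω, g (∑ o, Z (y o) - Psi p R c (fun o => Z (y o))) *
        φ (Psi p R c (fun o => Z (y o))) =
      (𝔼 z, g (Z z)) * (𝔼 y : Option K → Ω, WR R (fun o => Z (y o)) * φ (∑ j, Z (y (some j))))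
      + (𝔼 y : Option K → Ω, WA p R (fun o => Z (y o)) * g (∑ o, Z (y o) - c)) * φ c
      + (𝔼 z, g (Z z)) * ∑ k, 𝔼 y : Option K → Ω, tau p k (Z (y none)) *
        ((1 - WL R k (fun o => Z (y o))) * φ (Z (y none) + ∑ j ∈ univ.erase k, Z (y (some j)))) := by
  have h1 := fun y : Option K → Ω => Psi_decomp p R c (fun a b => g a * φ b) (fun o => Z (y o))
  simp only [h1]
  rw [expect_add_distrib, expect_add_distrib, expect_sum_comm, mul_sum]
  congr 1
  · congr 1
    · rw [← expect_indep (fun z => g (Z z)) _ none]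
      · exact expect_congr rfl fun y _ => by ring
      · intro y z
        have : ∀ j, Z (Function.update y none z (some j)) = Z (y (some j)) := fun j => by
          rw [Function.update_of_ne (by simp)]
        simp only [this]
        rw [WR_congr R (t := fun o => Z (y o)) this]
    · rw [expect_mul]
      exact expect_congr rfl fun y _ => by ring
  · refine sum_congr rfl fun k _ => ?_
    rw [← expect_indep (fun z => g (Z z)) _ (some k)]
    · exact expect_congr rfl fun y _ => by ring
    · intro y z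
      have h3 : Z (Function.update y (some k) z none) = Z (y none) := by
        rw [Function.update_of_ne (by simp)]
      have h4 : ∑ j ∈ univ.erase k, Z (Function.update y (some k) z (some j))
          = ∑ j ∈ univ.erase k, Z (y (some j)) :=
        sum_congr rfl fun j hj => upd_some Z y k z j (ne_of_mem_erase hj)
      simp only [h3, h4]
      rw [WL_congr R k (t := fun o => Z (y o)) (upd_some Z y k z)]

lemma Psi_cond (h0 : 𝔼 z, Z z = 0) (c : ℝ)
    (hc : 𝔼 y : Option K → Ω, WA p R (fun o => Z (y o)) * (∑ o, Z (y o) - c) = 0) (φ : ℝ → ℝ) :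
    𝔼 y : Option K → Ω, (∑ o, Z (y o)) * φ (Psi p R c (fun o => Z (y o))) =
    𝔼 y : Option K → Ω, Psi p R c (fun o => Z (y o)) * φ (Psi p R c (fun o => Z (y o))) := by
  have h := Psi_resid p R Z c (fun a => a) φ
  simp only [h0, hc, zero_mul, add_zero, sub_mul] at h
  rw [expect_sub_distrib] at h
  linarith

end star

end

end Crest.Agent.R63
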